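import Vale.Agent.P313.AC.SpecA

/-!
Normal form of first-order operators: alternating negated quantifiers over a leaf.
-/

namespace Vale.Agent.P313.AC

open Finset

/-- Leaves: the variables are `n`, the code `s` of the quantified numbers, and the arguments. -/
structure Leaf (m k : ℕ) where
  kd : (Fin (k + 2) → ℕ) → ℕ
  pp : (Fin (k + 2) → ℕ) → ℕ
  tt : Fin m → (Fin (k + 2) → ℕ) → ℕ

namespace Leaf

variable {m k : ℕ} (l : Leaf m k)

/-- The functions of the leaf are computed in logarithmic space. -/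
structure Ok : Prop where
  kd : NF l.kd
  pp : NF l.pp
  tt : ∀ i, NF (l.tt i)

/-- The value of the leaf. -/
def val (x : List Bool) (X : (Fin m → ℕ) → Prop) (v : Fin (k + 2) → ℕ) : Prop :=
  match l.kd v with
  | 0 => False
  | 1 => True
  | 2 => x[l.pp v]? = some true
  | 3 => ¬ x[l.pp v]? = some true
  | 4 => X (fun i => l.tt i v)
  | _ => ¬ X (fun i => l.tt i v)

/-- Alternating negated quantifiers over the leaf. -/
def nest (x : List Bool) (X : (Fin m → ℕ) → Prop) (M : ℕ) : ℕ → ℕ → (Fin k → ℕ) → Prop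
  | 0 => fun s a => l.val x X (Fin.cons x.length (Fin.cons s a))
  | j + 1 => fun s a => ∀ b < M, ¬ nest x X M j (s * M + b) a

end Leaf

/-- Module A2. -/
def ModA2 : Prop := ∀ (m k : ℕ) (F : Op m k), FO F → ∃ d0 E0 : ℕ, ∀ d ≥ d0, ∀ E ≥ E0,
  ∃ l : Leaf m k, l.Ok ∧ ∀ (x : List Bool) (X : (Fin m → ℕ) → Prop) (a : Fin k → ℕ),
    F x X a ↔ l.nest x X ((x.length + 2) ^ E) d 0 a

end Vale.Agent.P313.AC
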