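import Vale.Agent.P313.AC.H72.ModA
import Vale.Agent.P313.AC.H602.NF

/-!
Module A.
-/

namespace Vale.Agent.P313.AC

/-- Module A: iterating a first-order operator gives uniform circuits. -/
theorem H72.modA : ModA := modA_of H602.modA2

end Vale.Agent.P313.AC
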