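import Vale.Agent.P313.AC.H72.Code

/-!
The circuit of the iteration of an operator in normal form: gates and their values.
-/

namespace Vale.Agent.P313.AC

open Finset

/-- The parameters of the circuit for one length: `T1` is the number of layers, `d` the number of
quantifiers, `M` their range. -/
structure Cp where
  n : ℕ
  T1 : ℕ
  d : ℕ
  M : ℕ
  R : ℕ

namespace Cp

variable (p : Cp) {m : ℕ} (l : Leaf m m)

/-- Number of gates. -/
def sz (m : ℕ) : ℕ := p.T1 * ((p.d + 2) * (p.M ^ p.d * p.M ^ m))

/-- The code of a gate. -/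
def cod (t j s c : ℕ) : ℕ := cd p.T1 (p.d + 2) (p.M ^ p.d) t j s c
/-- Layer. -/
def t (g : ℕ) : ℕ := gt p.T1 g
/-- Number of quantifiers left. -/
def j (g : ℕ) : ℕ := gj p.T1 (p.d + 2) g
/-- Code of the quantified numbers. -/
def s (g : ℕ) : ℕ := gs p.T1 (p.d + 2) (p.M ^ p.d) g
/-- Code of the arguments. -/
def c (g : ℕ) : ℕ := gc p.T1 (p.d + 2) (p.M ^ p.d) g

/-- The variables of the leaf. -/
def vr (m g : ℕ) : Fin (m + 2) → ℕ := Fin.cons p.n (Fin.cons (p.s g) (dec p.M m (p.c g)))

/-- The kind of a gate: `0` or, `1` and, `2` input, `3` nor. -/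
def gk (g : ℕ) : ℕ :=
  if p.j g = p.d + 1 then (if p.s g < p.n then 2 else 0)
  else if 1 ≤ p.j g then 3
  else if l.kd (p.vr m g) = 0 then 0
  else if l.kd (p.vr m g) = 1 then 1
  else if l.kd (p.vr m g) = 2 then (if l.pp (p.vr m g) < p.n then 2 else 0)
  else if l.kd (p.vr m g) = 4 then 0
  else 3

/-- The index of the input bit. -/
def gi (g : ℕ) : ℕ := if p.j g = p.d + 1 then p.s g else l.pp (p.vr m g)

/-- The gates. -/
def gate (g : ℕ) : Gate :=
  if p.gk l g = 0 then Gate.or else if p.gk l g = 1 then Gate.and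
  else if p.gk l g = 2 then Gate.input (p.gi l g) else Gate.nor

/-- The wires: from a quantifier to its scope. -/
def w1 (g h : ℕ) : Prop :=
  1 ≤ p.j g ∧ p.j g ≤ p.d ∧ p.t h = p.t g ∧ p.j h + 1 = p.j g ∧ p.s h / p.M = p.s g ∧ p.c h = p.c g

/-- The wires: negated input bit. -/
def w2 (g h : ℕ) : Prop :=
  p.j g = 0 ∧ l.kd (p.vr m g) = 3 ∧ p.t h = p.t g ∧ p.j h = p.d + 1 ∧ p.s h = l.pp (p.vr m g) ∧
    p.c h = p.c g

/-- The wires: to the previous layer. -/
def w3 (g h : ℕ) : Prop :=
  p.j g = 0 ∧ 4 ≤ l.kd (p.vr m g) ∧ p.t h + 1 = p.t g ∧ p.j h = p.d ∧ p.s h = 0 ∧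
    ∀ i, dec p.M m (p.c h) i = l.tt i (p.vr m g) ∧ l.tt i (p.vr m g) < p.R

/-- The wires. -/
def wire (g h : ℕ) : Prop := p.w1 g h ∨ p.w2 l g h ∨ p.w3 l g h

/-- The level of a gate. -/
def lev (g : ℕ) : ℕ := p.t g * (p.d + 2) + (if p.j g = p.d + 1 then 0 else p.j g + 1)

variable {p l}

/-- The circuit. -/
def circ (p : Cp) (l : Leaf m m) (o : ℕ) : Circuit := ⟨p.sz m, p.gate l, p.wire l, o⟩

theorem lev_lt {g : ℕ} (hg : g < p.sz m) : p.lev g < p.T1 * (p.d + 2) := by
  have h1 : p.t g < p.T1 := gt_lt hg
  have h2 : p.j g < p.d + 2 := gj_lt hg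
  have h3 : (p.t g + 1) * (p.d + 2) ≤ p.T1 * (p.d + 2) := Nat.mul_le_mul_right _ h1
  rw [add_mul, one_mul] at h3
  unfold lev
  split_ifs <;> omega

theorem lev_wire {g h : ℕ} (hd : 1 ≤ p.d) (hg : g < p.sz m)
    (hw : p.wire l g h) : p.lev h < p.lev g := by
  have h2 : p.j g < p.d + 2 := gj_lt hg
  unfold lev
  rcases hw with h1 | h1 | h1
  · obtain ⟨h3, h4, h5, h6, -, -⟩ := h1
    rw [h5, if_neg (by omega), if_neg (by omega)]
    omega
  · obtain ⟨h3, -, h5, h6, -, -⟩ := h1
    rw [h5, if_pos h6, if_neg (by omega)]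
    omega
  · obtain ⟨h3, -, h5, h6, -, -⟩ := h1
    rw [if_neg (by omega), if_neg (by omega), ← h5, add_mul]
    omega

theorem depth {o D : ℕ} (hd : 1 ≤ p.d) (hD : p.T1 * (p.d + 2) ≤ D) : (p.circ l o).DepthLT D :=
  ⟨p.lev, fun _ hg => (lev_lt hg).trans_le hD, fun _ hg _ _ hw => lev_wire hd hg hw⟩

theorem input_lt {g i : ℕ} (h : p.gate l g = Gate.input i) : i < p.n := by
  unfold gate at h
  have h0 : p.gk l g = 2 := by
    by_contra h1
    rw [if_neg h1] at h
    split_ifs at h
  rw [if_neg (by omega), if_neg (by omega), if_pos h0, Gate.input.injEq] at h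
  rw [← h]
  unfold gk at h0
  unfold gi
  split_ifs at h0 ⊢ with h1 h2 h3 h4 h5 h6 h7 <;> first | assumption | omega

/-- The value of a gate. -/
def sem (p : Cp) (l : Leaf m m) (x : List Bool) (X : ℕ → (Fin m → ℕ) → Prop) (g : ℕ) : Prop :=
  if p.j g = p.d + 1 then x[p.s g]? = some true
  else l.nest x (X (p.t g)) p.M (p.j g) (p.s g) (dec p.M m (p.c g))

theorem nest_succ {x : List Bool} {X : (Fin m → ℕ) → Prop} {M j s : ℕ} {a : Fin m → ℕ} :
    l.nest x X M (j + 1) s a ↔ ∀ b < M, ¬ l.nest x X M j (s * M + b) a := Iff.rfl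

theorem nest_zero {x : List Bool} {X : (Fin m → ℕ) → Prop} {M s : ℕ} {a : Fin m → ℕ} :
    l.nest x X M 0 s a ↔ l.val x X (Fin.cons x.length (Fin.cons s a)) := Iff.rfl

/-- The values of the gates. -/
theorem val_iff {x : List Bool} {X : ℕ → (Fin m → ℕ) → Prop} {o : ℕ} (hn : p.n = x.length)
    (hM : 0 < p.M) (hR : p.R ≤ p.M) (hd : 1 ≤ p.d) (hnM : p.n ≤ p.M ^ p.d) (hX0 : ∀ a, ¬ X 0 a)
    (hX : ∀ t a, X (t + 1) a ↔ (∀ i, a i < p.R) ∧ l.nest x (X t) p.M p.d 0 a) :
    ∀ D g, g < p.sz m → (p.j g ≤ p.d → p.s g < p.M ^ (p.d - p.j g)) → p.lev g < D →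
      ((p.circ l o).val x D g ↔ p.sem l x X g) := by
  intro D
  induction D with
  | zero => intro g _ _ h; omega
  | succ D ih =>
    intro g hg hv hlev
    have ht1 : p.t g < p.T1 := gt_lt hg
    have hj2 : p.j g < p.d + 2 := gj_lt hg
    have hs3 : p.s g < p.M ^ p.d := gs_lt hg
    have hc4 : p.c g < p.M ^ m := gc_lt hg
    have hch : ∀ h, h < p.sz m → (p.j h ≤ p.d → p.s h < p.M ^ (p.d - p.j h)) →
        p.wire l g h → ((p.circ l o).val x D h ↔ p.sem l x X h) := fun h hh hv2 hw =>
      ih h hh hv2 (by have := lev_wire hd hg hw; omega)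
    -- the value of the circuit in terms of the kind of the gate
    have hval : (p.circ l o).val x (D + 1) g ↔
        match p.gate l g with
        | Gate.input i => x[i]? = some true
        | Gate.and => ∀ h < p.sz m, p.wire l g h → (p.circ l o).val x D h
        | Gate.or => ∃ h < p.sz m, p.wire l g h ∧ (p.circ l o).val x D h
        | Gate.nor => ∀ h < p.sz m, p.wire l g h → ¬ (p.circ l o).val x D h := Iff.rfl
    rw [hval]
    have hor : p.gk l g = 0 → p.gate l g = Gate.or := fun h => by unfold gate; rw [if_pos h]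
    have hand : p.gk l g = 1 → p.gate l g = Gate.and := fun h => by
      unfold gate; rw [if_neg (by omega), if_pos h]
    have hin : p.gk l g = 2 → p.gate l g = Gate.input (p.gi l g) := fun h => by
      unfold gate; rw [if_neg (by omega), if_neg (by omega), if_pos h]
    have hnor : p.gk l g = 3 → p.gate l g = Gate.nor := fun h => by
      unfold gate; rw [if_neg (by omega), if_neg (by omega), if_neg (by omega)]
    rcases Nat.lt_or_ge p.d (p.j g) with hj | hj
    · -- input gates
      have hj1 : p.j g = p.d + 1 := by omega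
      unfold sem
      rw [if_pos hj1]
      have hgi : p.gi l g = p.s g := by unfold gi; rw [if_pos hj1]
      rcases Nat.lt_or_ge (p.s g) p.n with h1 | h1
      · rw [hin (by unfold gk; rw [if_pos hj1, if_pos h1]), hgi]
      · rw [hor (by unfold gk; rw [if_pos hj1, if_neg (by omega)])]
        constructor
        · rintro ⟨h, _, h2, _⟩
          rcases h2 with h3 | h3 | h3
          · exact absurd h3.2.1 (by omega)
          · exact absurd h3.1 (by omega)
          · exact absurd h3.1 (by omega)
        · intro h2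
          rw [List.getElem?_eq_none (by omega)] at h2
          cases h2
    have hv' := hv hj
    unfold sem
    rw [if_neg (by omega)]
    rcases Nat.eq_zero_or_pos (p.j g) with hj0 | hj0
    · -- leaves
      rw [hj0, nest_zero, ← hn]
      show _ ↔ l.val x (X (p.t g)) (p.vr m g)
      have hk : ∀ r, (if l.kd (p.vr m g) = 0 then 0
          else if l.kd (p.vr m g) = 1 then 1
          else if l.kd (p.vr m g) = 2 then (if l.pp (p.vr m g) < p.n then 2 else 0)
          else if l.kd (p.vr m g) = 4 then 0
          else 3) = r → p.gk l g = r := fun r h => by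
        unfold gk; rw [if_neg (by omega), if_neg (by omega)]; exact h
      -- wires to the previous layer
      have hprev : 4 ≤ l.kd (p.vr m g) →
          ((∃ h < p.sz m, p.wire l g h ∧ (p.circ l o).val x D h) ↔
            X (p.t g) (fun i => l.tt i (p.vr m g))) := by
        intro h4
        constructor
        · rintro ⟨h, hh, hw, hx⟩
          have hw3 : p.w3 l g h := by
            rcases hw with h3 | h3 | h3
            · exact absurd h3.1 (by omega)
            · exact absurd h3.2.1 (by omega)
            · exact h3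
          obtain ⟨-, -, h5, h6, h7, h8⟩ := hw3
          have h9 := (hch h hh (fun _ => by
            rw [h7, h6, Nat.sub_self, pow_zero]; exact Nat.one_pos) hw).1 hx
          unfold sem at h9
          rw [if_neg (by omega), h6, h7] at h9
          rw [← h5, hX]
          refine ⟨fun i => (h8 i).2, ?_⟩
          have h10 : dec p.M m (p.c h) = fun i => l.tt i (p.vr m g) := funext fun i => (h8 i).1
          rw [← h10]
          exact h9
        · intro hx
          obtain ⟨t, ht⟩ : ∃ t, p.t g = t + 1 := by
            refine ⟨p.t g - 1, ?_⟩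
            have : p.t g ≠ 0 := fun h => hX0 _ (h ▸ hx)
            omega
          rw [ht, hX] at hx
          obtain ⟨h5, h6⟩ := hx
          have htM : ∀ i, l.tt i (p.vr m g) < p.M := fun i => (h5 i).trans_le hR
          set a : Fin m → ℕ := fun i => l.tt i (p.vr m g) with ha
          have e1 : t < p.T1 := by omega
          have e2 : p.d < p.d + 2 := by omega
          have e3 : 0 < p.M ^ p.d := Nat.pow_pos hM
          have q1 : p.t (p.cod t p.d 0 (enc p.M a)) = t := gt_cd e1
          have q2 : p.j (p.cod t p.d 0 (enc p.M a)) = p.d := gj_cd e1 e2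
          have q3 : p.s (p.cod t p.d 0 (enc p.M a)) = 0 := gs_cd e1 e2 e3
          have q4 : p.c (p.cod t p.d 0 (enc p.M a)) = enc p.M a := gc_cd e1 e2 e3
          have q5 : p.cod t p.d 0 (enc p.M a) < p.sz m := cd_lt e1 e2 e3 (enc_lt a htM)
          have q6 : p.wire l g (p.cod t p.d 0 (enc p.M a)) := by
            refine Or.inr (Or.inr ⟨hj0, h4, by rw [q1, ht], q2, q3, fun i => ⟨?_, h5 i⟩⟩)
            rw [q4, dec_enc a htM]
          refine ⟨_, q5, q6, ?_⟩
          rw [hch _ q5 (fun _ => by rw [q3, q2, Nat.sub_self, pow_zero]; exact Nat.one_pos) q6]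
          unfold sem
          rw [if_neg (by omega), q1, q2, q3, q4, dec_enc a htM]
          exact h6
      unfold Leaf.val
      rcases hkd : l.kd (p.vr m g) with _ | _ | _ | _ | _ | r
      · rw [hor (hk 0 (by rw [if_pos hkd]))]
        simp only [iff_false]
        rintro ⟨h, _, h2, _⟩
        rcases h2 with h3 | h3 | h3
        · exact absurd h3.1 (by omega)
        · exact absurd h3.2.1 (by omega)
        · exact absurd h3.2.1 (by omega)
      · rw [hand (hk 1 (by rw [if_neg (by omega), if_pos hkd]))]
        simp only [iff_true]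
        intro h _ h2
        rcases h2 with h3 | h3 | h3
        · exact absurd h3.1 (by omega)
        · exact absurd h3.2.1 (by omega)
        · exact absurd h3.2.1 (by omega)
      · rcases Nat.lt_or_ge (l.pp (p.vr m g)) p.n with h1 | h1
        · rw [hin (hk 2 (by rw [if_neg (by omega), if_neg (by omega), if_pos hkd, if_pos h1]))]
          have hgi : p.gi l g = l.pp (p.vr m g) := by unfold gi; rw [if_neg (by omega)]
          rw [hgi]
          exact Iff.rfl
        · rw [hor (hk 0 (by rw [if_neg (by omega), if_neg (by omega), if_pos hkd,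
            if_neg (by omega)]))]
          constructor
          · rintro ⟨h, _, h2, _⟩
            rcases h2 with h3 | h3 | h3
            · exact absurd h3.1 (by omega)
            · exact absurd h3.2.1 (by omega)
            · exact absurd h3.2.1 (by omega)
          · intro h2
            rw [List.getElem?_eq_none (by omega)] at h2
            cases h2
      · rw [hnor (hk 3 (by rw [if_neg (by omega), if_neg (by omega), if_neg (by omega),
          if_neg (by omega)]))]
        constructor
        · intro hx hb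
          have hlt : l.pp (p.vr m g) < x.length := by
            by_contra h5
            rw [List.getElem?_eq_none (by omega)] at hb
            cases hb
          have e1 : p.t g < p.T1 := ht1
          have e2 : p.d + 1 < p.d + 2 := by omega
          have e3 : l.pp (p.vr m g) < p.M ^ p.d := by omega
          have q1 : p.t (p.cod (p.t g) (p.d + 1) (l.pp (p.vr m g)) (p.c g)) = p.t g := gt_cd e1
          have q2 : p.j (p.cod (p.t g) (p.d + 1) (l.pp (p.vr m g)) (p.c g)) = p.d + 1 :=
            gj_cd e1 e2
          have q3 : p.s (p.cod (p.t g) (p.d + 1) (l.pp (p.vr m g)) (p.c g)) =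
            l.pp (p.vr m g) := gs_cd e1 e2 e3
          have q4 : p.c (p.cod (p.t g) (p.d + 1) (l.pp (p.vr m g)) (p.c g)) = p.c g :=
            gc_cd e1 e2 e3
          have q5 : p.cod (p.t g) (p.d + 1) (l.pp (p.vr m g)) (p.c g) < p.sz m :=
            cd_lt e1 e2 e3 hc4
          have q6 : p.wire l g (p.cod (p.t g) (p.d + 1) (l.pp (p.vr m g)) (p.c g)) :=
            Or.inr (Or.inl ⟨hj0, hkd, q1, q2, q3, q4⟩)
          refine hx _ q5 q6 ?_
          rw [hch _ q5 (fun h => absurd h (by omega)) q6]
          unfold sem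
          rw [if_pos q2, q3]
          exact hb
        · intro hx h hh hw hv3
          have hw2 : p.w2 l g h := by
            rcases hw with h3 | h3 | h3
            · exact absurd h3.1 (by omega)
            · exact h3
            · exact absurd h3.2.1 (by omega)
          obtain ⟨-, -, h5, h6, h7, h8⟩ := hw2
          have h9 := (hch h hh (fun h => absurd h (by omega)) hw).1 hv3
          unfold sem at h9
          rw [if_pos h6, h7] at h9
          exact hx h9
      · rw [hor (hk 0 (by rw [if_neg (by omega), if_neg (by omega), if_neg (by omega),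
          if_pos hkd]))]
        exact hprev (by omega)
      · rw [hnor (hk 3 (by rw [if_neg (by omega), if_neg (by omega), if_neg (by omega),
          if_neg (by omega)]))]
        have h5 := (hprev (by omega)).not
        push Not at h5
        exact h5
    · -- quantifiers
      obtain ⟨j, hjj⟩ : ∃ j, p.j g = j + 1 := ⟨p.j g - 1, by omega⟩
      rw [hnor (by unfold gk; rw [if_neg (by omega), if_pos (by omega)]), hjj, nest_succ]
      have hpw : p.M ^ (p.d - j) = p.M ^ (p.d - p.j g) * p.M := by
        rw [← pow_succ]; congr 1; omega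
      constructor
      · intro hx b hb hnb
        have e1 : p.t g < p.T1 := ht1
        have e2 : j < p.d + 2 := by omega
        have e0 : p.s g * p.M + b < p.M ^ (p.d - j) := by
          rw [hpw]
          have h5 : (p.s g + 1) * p.M ≤ p.M ^ (p.d - p.j g) * p.M := Nat.mul_le_mul_right _ hv'
          rw [add_mul, one_mul] at h5
          omega
        have e3 : p.s g * p.M + b < p.M ^ p.d :=
          e0.trans_le (Nat.pow_le_pow_right hM (by omega))
        have q1 : p.t (p.cod (p.t g) j (p.s g * p.M + b) (p.c g)) = p.t g := gt_cd e1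
        have q2 : p.j (p.cod (p.t g) j (p.s g * p.M + b) (p.c g)) = j := gj_cd e1 e2
        have q3 : p.s (p.cod (p.t g) j (p.s g * p.M + b) (p.c g)) = p.s g * p.M + b :=
          gs_cd e1 e2 e3
        have q4 : p.c (p.cod (p.t g) j (p.s g * p.M + b) (p.c g)) = p.c g := gc_cd e1 e2 e3
        have q5 : p.cod (p.t g) j (p.s g * p.M + b) (p.c g) < p.sz m := cd_lt e1 e2 e3 hc4
        have q6 : p.wire l g (p.cod (p.t g) j (p.s g * p.M + b) (p.c g)) := by
          refine Or.inl ⟨by omega, hj, q1, by rw [q2, hjj], ?_, q4⟩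
          rw [q3, mul_comm, Nat.mul_add_div hM, Nat.div_eq_of_lt hb, add_zero]
        refine hx _ q5 q6 ?_
        rw [hch _ q5 (fun _ => by rw [q3, q2]; exact e0) q6]
        unfold sem
        rw [if_neg (by omega), q1, q2, q3, q4]
        exact hnb
      · intro hx h hh hw hvh
        have hw1 : p.w1 g h := by
          rcases hw with h3 | h3 | h3
          · exact h3
          · exact absurd h3.1 (by omega)
          · exact absurd h3.1 (by omega)
        obtain ⟨-, -, h5, h6, h7, h8⟩ := hw1
        have hjh : p.j h = j := by omega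
        have hsh : p.s h = p.s g * p.M + p.s h % p.M := by
          have := Nat.div_add_mod (p.s h) p.M
          rw [h7] at this
          rw [mul_comm]
          exact this.symm
        have hsm : p.s h % p.M < p.M := Nat.mod_lt _ hM
        have hvh2 : p.j h ≤ p.d → p.s h < p.M ^ (p.d - p.j h) := by
          intro _
          rw [hjh, hpw]
          have h5 : (p.s g + 1) * p.M ≤ p.M ^ (p.d - p.j g) * p.M := Nat.mul_le_mul_right _ hv'
          rw [add_mul, one_mul] at h5
          omega
        have h9 := (hch h hh hvh2 hw).1 hvh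
        unfold sem at h9
        rw [if_neg (by omega), hjh, h5, h8, hsh] at h9
        exact hx _ hsm h9

end Cp

end Vale.Agent.P313.AC
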