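import Vale.Agent.P313.AC.H72.Nest
import Vale.Agent.P313.H296.LFx

/-!
Codes of gates: four digits, the last of which codes a tuple.
-/

namespace Vale.Agent.P313.AC

open Finset

section code

variable {T1 D S K t j s c g : ℕ}

/-- The code of a gate. -/
def cd (T1 D S t j s c : ℕ) : ℕ := t + T1 * (j + D * (s + S * c))
/-- First digit. -/
def gt (T1 g : ℕ) : ℕ := g % T1
/-- Second digit. -/
def gj (T1 D g : ℕ) : ℕ := g / T1 % D
/-- Third digit. -/
def gs (T1 D S g : ℕ) : ℕ := g / T1 / D % S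
/-- Last digit. -/
def gc (T1 D S g : ℕ) : ℕ := g / T1 / D / S

theorem div_cd (ht : t < T1) : cd T1 D S t j s c / T1 = j + D * (s + S * c) := by
  unfold cd
  rw [Nat.add_mul_div_left _ _ (by omega), Nat.div_eq_of_lt ht, zero_add]

theorem gt_cd (ht : t < T1) : gt T1 (cd T1 D S t j s c) = t := by
  unfold gt cd
  rw [Nat.add_mul_mod_self_left, Nat.mod_eq_of_lt ht]

theorem gj_cd (ht : t < T1) (hj : j < D) : gj T1 D (cd T1 D S t j s c) = j := by
  unfold gj
  rw [div_cd ht, Nat.add_mul_mod_self_left, Nat.mod_eq_of_lt hj]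

theorem div2_cd (ht : t < T1) (hj : j < D) : cd T1 D S t j s c / T1 / D = s + S * c := by
  rw [div_cd ht, Nat.add_mul_div_left _ _ (by omega), Nat.div_eq_of_lt hj, zero_add]

theorem gs_cd (ht : t < T1) (hj : j < D) (hs : s < S) : gs T1 D S (cd T1 D S t j s c) = s := by
  unfold gs
  rw [div2_cd ht hj, Nat.add_mul_mod_self_left, Nat.mod_eq_of_lt hs]

theorem gc_cd (ht : t < T1) (hj : j < D) (hs : s < S) : gc T1 D S (cd T1 D S t j s c) = c := by
  unfold gc
  rw [div2_cd ht hj, Nat.add_mul_div_left _ _ (by omega), Nat.div_eq_of_lt hs, zero_add]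

theorem add_mul_lt {a b A B : ℕ} (ha : a < A) (hb : b < B) : a + A * b < A * B := by
  have h1 : A * (b + 1) ≤ A * B := Nat.mul_le_mul_left _ hb
  rw [mul_add, mul_one] at h1
  omega

theorem cd_lt (ht : t < T1) (hj : j < D) (hs : s < S) (hc : c < K) :
    cd T1 D S t j s c < T1 * (D * (S * K)) :=
  add_mul_lt ht (add_mul_lt hj (add_mul_lt hs hc))

theorem gt_lt (h : g < T1 * (D * (S * K))) : gt T1 g < T1 := by
  refine Nat.mod_lt _ (Nat.pos_of_ne_zero ?_)
  rintro rfl
  rw [zero_mul] at h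
  omega

theorem gj_lt (h : g < T1 * (D * (S * K))) : gj T1 D g < D := by
  refine Nat.mod_lt _ (Nat.pos_of_ne_zero ?_)
  rintro rfl
  rw [zero_mul, mul_zero] at h
  omega

theorem gs_lt (h : g < T1 * (D * (S * K))) : gs T1 D S g < S := by
  refine Nat.mod_lt _ (Nat.pos_of_ne_zero ?_)
  rintro rfl
  rw [zero_mul, mul_zero, mul_zero] at h
  omega

theorem gc_lt (h : g < T1 * (D * (S * K))) : gc T1 D S g < K :=
  Nat.div_lt_of_lt_mul (Nat.div_lt_of_lt_mul (Nat.div_lt_of_lt_mul h))

end code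

section tuple

variable {m M : ℕ}

/-- The code of a tuple. -/
def enc (M : ℕ) {m : ℕ} (a : Fin m → ℕ) : ℕ := ∑ i : Fin m, a i * M ^ (i : ℕ)

/-- The tuple with a given code. -/
def dec (M m c : ℕ) : Fin m → ℕ := fun i => c / M ^ (i : ℕ) % M

theorem enc_succ (a : Fin (m + 1) → ℕ) : enc M a = a 0 + M * enc M (Fin.tail a) := by
  unfold enc
  rw [Fin.sum_univ_succ, Fin.val_zero, pow_zero, mul_one, mul_sum]
  congr 1
  refine sum_congr rfl (fun i _ => ?_)
  rw [Fin.val_succ, pow_succ]
  simp only [Fin.tail]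
  ring

theorem enc_lt (a : Fin m → ℕ) (h : ∀ i, a i < M) : enc M a < M ^ m := by
  induction m with
  | zero => simp [enc]
  | succ m ih =>
    rw [enc_succ, pow_succ, mul_comm (M ^ m) M]
    exact add_mul_lt (h 0) (ih _ (fun i => h i.succ))

theorem dec_enc (a : Fin m → ℕ) (h : ∀ i, a i < M) : dec M m (enc M a) = a := by
  induction m with
  | zero => funext i; exact i.elim0
  | succ m ih =>
    have hM : 0 < M := lt_of_le_of_lt (Nat.zero_le _) (h 0)
    funext i
    unfold dec
    rw [enc_succ]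
    refine Fin.cases ?_ (fun j => ?_) i
    · rw [Fin.val_zero, pow_zero, Nat.div_one, Nat.add_mul_mod_self_left, Nat.mod_eq_of_lt (h 0)]
    · rw [Fin.val_succ, pow_succ, mul_comm (M ^ (j : ℕ)) M, ← Nat.div_div_eq_div_mul,
        Nat.add_mul_div_left _ _ hM, Nat.div_eq_of_lt (h 0), zero_add]
      exact congrFun (ih (Fin.tail a) (fun i => h i.succ)) j

end tuple

/-! ### In `LF` -/

section lf

variable {k m : ℕ} {T1 D S M g h : Fn k}

theorem lf_gt (hT : LF T1) (hg : LF g) : LF (fun x a => gt (T1 x a) (g x a)) := hg.mod hT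

theorem lf_gj (hT : LF T1) (hD : LF D) (hg : LF g) :
    LF (fun x a => gj (T1 x a) (D x a) (g x a)) := (hg.div hT).mod hD

theorem lf_gs (hT : LF T1) (hD : LF D) (hS : LF S) (hg : LF g) :
    LF (fun x a => gs (T1 x a) (D x a) (S x a) (g x a)) := ((hg.div hT).div hD).mod hS

theorem lf_gc (hT : LF T1) (hD : LF D) (hS : LF S) (hg : LF g) :
    LF (fun x a => gc (T1 x a) (D x a) (S x a) (g x a)) := ((hg.div hT).div hD).div hS

theorem lf_dec (hM : LF M) (hg : LF g) (i : Fin m) :
    LF (fun x a => dec (M x a) m (g x a) i) := (hg.div (hM.powConst i)).mod hM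

theorem lf_finsum {f : Fin m → Fn k} (hf : ∀ i, LF (f i)) :
    LF (fun x a => ∑ i : Fin m, f i x a) := by
  induction m with
  | zero => exact LF.zero.congr (fun x a => by simp)
  | succ m ih =>
    exact ((hf 0).add (ih (fun i => hf i.succ))).congr
      (fun x a => (Fin.sum_univ_succ (fun i => f i x a)).symm)

theorem lf_enc {f : Fin m → Fn k} (hM : LF M) (hf : ∀ i, LF (f i)) :
    LF (fun x a => enc (M x a) (fun i => f i x a)) :=
  lf_finsum (fun i => (hf i).mul (hM.powConst i))

theorem lfp_forall_fin {P : Fin m → List Bool → (Fin k → ℕ) → Prop} (hP : ∀ i, LFP (P i)) :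
    LFP (fun x a => ∀ i, P i x a) := by
  induction m with
  | zero => exact (LFP.eq_zero LF.zero).congr (fun x a => by simp)
  | succ m ih =>
    exact ((hP 0).and (ih (fun i => hP i.succ))).congr
      (fun x a => (Fin.forall_fin_succ (P := fun i => P i x a)).symm)

theorem lf_cd {t j s c : Fn k} (hT : LF T1) (hD : LF D) (hS : LF S) (ht : LF t) (hj : LF j)
    (hs : LF s) (hc : LF c) :
    LF (fun x a => cd (T1 x a) (D x a) (S x a) (t x a) (j x a) (s x a) (c x a)) :=
  ht.add (hT.mul (hj.add (hD.mul (hs.add (hS.mul hc)))))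

end lf

end Vale.Agent.P313.AC
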