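import Vale.Agent.P313.AC.H72.Circ
import Vale.Agent.P313.AC.H602.Conn

/-!
Module A from the normal form: uniform circuits for the iteration of an operator.
-/

namespace Vale.Agent.P313.AC

open Finset

section lf

variable {k m : ℕ} {T : ℕ → ℕ} {l : Leaf m m} {d E e : ℕ} {N G H : Fn k}

/-- The parameters for length `n`. -/
def cp (T : ℕ → ℕ) (d E e n : ℕ) : Cp := ⟨n, T n + 1, d, (n + 2) ^ E, (n + 2) ^ e⟩

theorem lf_T1 (hT : NF (fun a : Fin 1 → ℕ => T (a 0))) (hN : LF N) :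
    LF (fun x a => T (N x a) + 1) :=
  (LF.comp (m := 1) (f := fun _ v => T (v 0)) (g := fun _ => N) hT (fun _ => hN)).succ

theorem lf_M (hN : LF N) (E : ℕ) : LF (fun x a => (N x a + 2) ^ E) :=
  (hN.add (LF.const 2)).powConst E

theorem lf_t (hT : NF (fun a : Fin 1 → ℕ => T (a 0))) (hN : LF N) (hG : LF G) :
    LF (fun x a => (cp T d E e (N x a)).t (G x a)) := lf_gt (lf_T1 hT hN) hG

theorem lf_j (hT : NF (fun a : Fin 1 → ℕ => T (a 0))) (hN : LF N) (hG : LF G) :
    LF (fun x a => (cp T d E e (N x a)).j (G x a)) := lf_gj (lf_T1 hT hN) (LF.const (d + 2)) hG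

theorem lf_s (hT : NF (fun a : Fin 1 → ℕ => T (a 0))) (hN : LF N) (hG : LF G) :
    LF (fun x a => (cp T d E e (N x a)).s (G x a)) :=
  lf_gs (lf_T1 hT hN) (LF.const (d + 2)) ((lf_M hN E).powConst d) hG

theorem lf_c (hT : NF (fun a : Fin 1 → ℕ => T (a 0))) (hN : LF N) (hG : LF G) :
    LF (fun x a => (cp T d E e (N x a)).c (G x a)) :=
  lf_gc (lf_T1 hT hN) (LF.const (d + 2)) ((lf_M hN E).powConst d) hG

theorem lf_leaf (hT : NF (fun a : Fin 1 → ℕ => T (a 0))) (hN : LF N) (hG : LF G)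
    {F : (Fin (m + 2) → ℕ) → ℕ} (hF : NF F) :
    LF (fun x a => F ((cp T d E e (N x a)).vr m (G x a))) := by
  refine LF.comp (m := m + 2) (f := fun _ v => F v)
    (g := fun i x a => (cp T d E e (N x a)).vr m (G x a) i) hF (fun i => ?_)
  refine Fin.cases ?_ (fun i => ?_) i
  · exact hN
  · refine Fin.cases ?_ (fun i => ?_) i
    · exact lf_s hT hN hG
    · exact lf_dec (lf_M hN E) (lf_c hT hN hG) i

theorem lf_gk (hl : l.Ok) (hT : NF (fun a : Fin 1 → ℕ => T (a 0))) (hN : LF N) (hG : LF G) :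
    LF (fun x a => (cp T d E e (N x a)).gk l (G x a)) := by
  have hj := lf_j (d := d) (E := E) (e := e) hT hN hG
  have hs := lf_s (d := d) (E := E) (e := e) hT hN hG
  have hk := lf_leaf (d := d) (E := E) (e := e) hT hN hG hl.kd
  have hp := lf_leaf (d := d) (E := E) (e := e) hT hN hG hl.pp
  exact LF.ite (LFP.eq hj (LF.const (d + 1))) (LF.ite (LFP.lt hs hN) (LF.const 2) (LF.const 0))
    (LF.ite (LFP.le (LF.const 1) hj) (LF.const 3)
      (LF.ite (LFP.eq hk (LF.const 0)) (LF.const 0)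
        (LF.ite (LFP.eq hk (LF.const 1)) (LF.const 1)
          (LF.ite (LFP.eq hk (LF.const 2)) (LF.ite (LFP.lt hp hN) (LF.const 2) (LF.const 0))
            (LF.ite (LFP.eq hk (LF.const 4)) (LF.const 0) (LF.const 3))))))

theorem lf_gi (hl : l.Ok) (hT : NF (fun a : Fin 1 → ℕ => T (a 0))) (hN : LF N) (hG : LF G) :
    LF (fun x a => (cp T d E e (N x a)).gi l (G x a)) :=
  LF.ite (LFP.eq (lf_j (d := d) (E := E) (e := e) hT hN hG) (LF.const (d + 1)))
    (lf_s (d := d) (E := E) (e := e) hT hN hG) (lf_leaf (d := d) (E := E) (e := e) hT hN hG hl.pp)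

theorem lfp_wire (hl : l.Ok) (hT : NF (fun a : Fin 1 → ℕ => T (a 0))) (hN : LF N) (hG : LF G)
    (hH : LF H) : LFP (fun x a => (cp T d E e (N x a)).wire l (G x a) (H x a)) := by
  have hjG := lf_j (d := d) (E := E) (e := e) hT hN hG
  have hsG := lf_s (d := d) (E := E) (e := e) hT hN hG
  have htG := lf_t (d := d) (E := E) (e := e) hT hN hG
  have hcG := lf_c (d := d) (E := E) (e := e) hT hN hG
  have hjH := lf_j (d := d) (E := E) (e := e) hT hN hH
  have hsH := lf_s (d := d) (E := E) (e := e) hT hN hH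
  have htH := lf_t (d := d) (E := E) (e := e) hT hN hH
  have hcH := lf_c (d := d) (E := E) (e := e) hT hN hH
  have hk := lf_leaf (d := d) (E := E) (e := e) hT hN hG hl.kd
  have hp := lf_leaf (d := d) (E := E) (e := e) hT hN hG hl.pp
  have hM := lf_M hN E
  have hR := lf_M hN e
  have w1 : LFP (fun x a => (cp T d E e (N x a)).w1 (G x a) (H x a)) :=
    (LFP.le (LF.const 1) hjG).and ((LFP.le hjG (LF.const d)).and ((LFP.eq htH htG).and
      ((LFP.eq hjH.succ hjG).and ((LFP.eq (hsH.div hM) hsG).and (LFP.eq hcH hcG)))))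
  have w2 : LFP (fun x a => (cp T d E e (N x a)).w2 l (G x a) (H x a)) :=
    (LFP.eq hjG (LF.const 0)).and ((LFP.eq hk (LF.const 3)).and ((LFP.eq htH htG).and
      ((LFP.eq hjH (LF.const (d + 1))).and ((LFP.eq hsH hp).and (LFP.eq hcH hcG)))))
  have w3 : LFP (fun x a => (cp T d E e (N x a)).w3 l (G x a) (H x a)) := by
    refine (LFP.eq hjG (LF.const 0)).and ((LFP.le (LF.const 4) hk).and ((LFP.eq htH.succ htG).and
      ((LFP.eq hjH (LF.const d)).and ((LFP.eq hsH (LF.const 0)).and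
        (lfp_forall_fin (fun i => ?_))))))
    have ht := lf_leaf (d := d) (E := E) (e := e) hT hN hG (hl.tt i)
    exact (LFP.eq (lf_dec hM hcH i) ht).and (LFP.lt ht hR)
  exact w1.or (w2.or w3)

end lf

theorem gate_and {m : ℕ} {p : Cp} {l : Leaf m m} {g : ℕ} :
    p.gate l g = Gate.and ↔ p.gk l g = 1 := by
  unfold Cp.gate
  constructor
  · intro h
    by_contra h1
    rw [if_neg h1] at h
    split_ifs at h
  · intro h
    rw [if_neg (by omega), if_pos h]

theorem gate_or {m : ℕ} {p : Cp} {l : Leaf m m} {g : ℕ} :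
    p.gate l g = Gate.or ↔ p.gk l g = 0 := by
  unfold Cp.gate
  constructor
  · intro h
    by_contra h1
    rw [if_neg h1] at h
    split_ifs at h
  · intro h
    rw [if_pos h]

theorem gate_nor {m : ℕ} {p : Cp} {l : Leaf m m} {g : ℕ} :
    p.gate l g = Gate.nor ↔ ¬ p.gk l g ≤ 2 := by
  unfold Cp.gate
  constructor
  · intro h h1
    split_ifs at h
    omega
  · intro h
    rw [if_neg (by omega), if_neg (by omega), if_neg (by omega)]

theorem gate_input {m : ℕ} {p : Cp} {l : Leaf m m} {g i : ℕ} :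
    p.gate l g = Gate.input i ↔ p.gk l g = 2 ∧ p.gi l g = i := by
  unfold Cp.gate
  constructor
  · intro h
    have h0 : p.gk l g = 2 := by
      by_contra h1
      rw [if_neg h1] at h
      split_ifs at h
    rw [if_neg (by omega), if_neg (by omega), if_pos h0, Gate.input.injEq] at h
    exact ⟨h0, h⟩
  · rintro ⟨h, rfl⟩
    rw [if_neg (by omega), if_neg (by omega), if_pos h]

/-- Module A from the normal form. -/
theorem modA_of (hA2 : ModA2) : ModA := by
  intro m F e T a0 hF hT ha0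
  obtain ⟨d0, E0, h⟩ := hA2 m m F hF
  obtain ⟨l, hl, hnest⟩ := h (d0 + 1) (by omega) (E0 + e + 1) (by omega)
  set d := d0 + 1 with hd
  set E := E0 + e + 1 with hE
  let p : ℕ → Cp := cp T d E e
  let o : ℕ → ℕ := fun n => if 1 ≤ T n ∧ ∀ i, a0 n i < (n + 2) ^ e then
    (p n).cod (T n - 1) d 0 (enc ((n + 2) ^ E) (a0 n)) else (p n).cod 0 (d + 1) n 0
  obtain ⟨dT, hdT⟩ := LF.pb hT
  have hT1 : ∀ n, T n + 1 ≤ (n + 2) ^ (dT + 1) := by
    intro n
    have h1 := hdT [] (fun _ => n)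
    have h2 : mu [] (fun _ : Fin 1 => n) = n + 2 := by
      simp [mu]
      try omega
    rw [h2] at h1
    have h3 : 1 ≤ (n + 2) ^ dT := Nat.one_le_pow _ _ (by omega)
    rw [pow_succ]
    have h4 : (n + 2) ^ dT * 2 ≤ (n + 2) ^ dT * (n + 2) := Nat.mul_le_mul_left _ (by omega)
    have h5 : T n ≤ (n + 2) ^ dT := h1
    omega
  have hM : ∀ n : ℕ, 0 < (n + 2) ^ E := fun n => Nat.pow_pos (by omega)
  have hRM : ∀ n : ℕ, (n + 2) ^ e ≤ (n + 2) ^ E := fun n =>
    Nat.pow_le_pow_right (by omega) (by omega)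
  have hnM : ∀ n : ℕ, n < ((n + 2) ^ E) ^ d := by
    intro n
    rw [← pow_mul]
    have h1 : (n + 2) ^ 1 ≤ (n + 2) ^ (E * d) :=
      Nat.pow_le_pow_right (by omega) (Nat.mul_pos (by omega) (by omega))
    rw [pow_one] at h1
    omega
  have ho : ∀ n, o n < (p n).sz m := by
    intro n
    show (if _ then _ else _) < _
    split_ifs with h1
    · exact cd_lt (by show T n - 1 < T n + 1; omega) (by show d < d + 2; omega)
        (Nat.pow_pos (hM n)) (enc_lt _ (fun i => (h1.2 i).trans_le (hRM n)))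
    · exact cd_lt (Nat.succ_pos _) (by show d + 1 < d + 2; omega) (hnM n)
        (Nat.pow_pos (hM n))
  let c : ℕ := (dT + 1) + ((d + 2) + (E * d + E * m))
  refine ⟨fun n => (p n).circ l (o n), c, fun n => ⟨?_, ho n, ?_, ?_⟩, ?_, ?_⟩
  · show (T n + 1) * ((d + 2) * (((n + 2) ^ E) ^ d * ((n + 2) ^ E) ^ m)) ≤ _
    have h1 : d + 2 ≤ (n + 2) ^ (d + 2) :=
      (Nat.lt_two_pow_self (n := d + 2)).le.trans (Nat.pow_le_pow_left (by omega) _)
    calc (T n + 1) * ((d + 2) * (((n + 2) ^ E) ^ d * ((n + 2) ^ E) ^ m))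
        ≤ (n + 2) ^ (dT + 1) * ((n + 2) ^ (d + 2) * (((n + 2) ^ E) ^ d * ((n + 2) ^ E) ^ m)) :=
          Nat.mul_le_mul (hT1 n) (Nat.mul_le_mul_right _ h1)
      _ = (n + 2) ^ c := by
          rw [← pow_mul, ← pow_mul, ← pow_add, ← pow_add, ← pow_add]
  · refine Cp.depth (by show 1 ≤ d; omega) ?_
    show (T n + 1) * (d + 2) ≤ c * T n + c
    have h1 : (T n + 1) * (d + 2) ≤ (T n + 1) * c := Nat.mul_le_mul_left _ (by omega)
    calc _ ≤ (T n + 1) * c := h1
      _ = c * T n + c := by ring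
  · intro g _ i hi
    exact Cp.input_lt hi
  · refine H602.conn _ ?_
    have hn : LF (fun _ a => a 0 : Fn 4) := LF.proj 0
    have hq : LF (fun _ a => a 1 : Fn 4) := LF.proj 1
    have hg : LF (fun _ a => a 2 : Fn 4) := LF.proj 2
    have hh : LF (fun _ a => a 3 : Fn 4) := LF.proj 3
    have hMn := lf_M hn E
    have hTT : LF (fun _ a => T (a 0) : Fn 4) :=
      LF.comp (m := 1) (f := fun _ v => T (v 0)) (g := fun _ _ a => a 0) hT (fun _ => hn)
    have haa : ∀ i, LF (fun _ a => a0 (a 0) i : Fn 4) := fun i =>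
      LF.comp (m := 1) (f := fun _ v => a0 (v 0) i) (g := fun _ _ a => a 0) (ha0 i) (fun _ => hn)
    have hsz : LF (fun _ a => (p (a 0)).sz m : Fn 4) :=
      (lf_T1 hT hn).mul ((LF.const (d + 2)).mul ((hMn.powConst d).mul (hMn.powConst m)))
    have hk := lf_gk (d := d) (E := E) (e := e) hl hT hn hg
    have hi := lf_gi (d := d) (E := E) (e := e) hl hT hn hg
    have hw := lfp_wire (d := d) (E := E) (e := e) hl hT hn hg hh
    have hoo : LF (fun _ a => o (a 0) : Fn 4) := by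
      refine LF.ite (P := fun _ a => 1 ≤ T (a 0) ∧ ∀ i, a0 (a 0) i < (a 0 + 2) ^ e)
        ((LFP.le (LF.const 1) hTT).and (lfp_forall_fin fun i => LFP.lt (haa i) (lf_M hn e)))
        (lf_cd (lf_T1 hT hn) (LF.const (d + 2)) (hMn.powConst d) (hTT.sub (LF.const 1))
          (LF.const d) (LF.const 0) (lf_enc hMn haa))
        (lf_cd (lf_T1 hT hn) (LF.const (d + 2)) (hMn.powConst d) (LF.const 0)
          (LF.const (d + 1)) hn (LF.const 0))
    have h0 : ∀ r, LFP (fun _ a => a 1 = r : List Bool → (Fin 4 → ℕ) → Prop) := fun r =>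
      LFP.eq hq (LF.const r)
    refine LFP.congr ((LFP.lt hg hsz).and (((h0 0).and ((LFP.lt hh hsz).and hw)).or
      (((h0 1).and (LFP.eq hk (LF.const 1))).or (((h0 2).and (LFP.eq hk (LF.const 0))).or
      (((h0 3).and (LFP.le hk (LF.const 2)).not).or
      (((h0 4).and ((LFP.eq hk (LF.const 2)).and (LFP.eq hi hh))).or
      (((h0 5).and (LFP.eq hoo hg)).or (h0 6)))))))) (fun x a => ?_)
    show _ ↔ (Circuit.mk _ _ _ _).query (a 1) (a 2) (a 3)
    unfold Circuit.query
    show _ ↔ a 2 < (p (a 0)).sz m ∧ ((a 1 = 0 ∧ a 3 < (p (a 0)).sz m ∧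
      (p (a 0)).wire l (a 2) (a 3)) ∨ (a 1 = 1 ∧ (p (a 0)).gate l (a 2) = Gate.and) ∨
      (a 1 = 2 ∧ (p (a 0)).gate l (a 2) = Gate.or) ∨
      (a 1 = 3 ∧ (p (a 0)).gate l (a 2) = Gate.nor) ∨
      (a 1 = 4 ∧ (p (a 0)).gate l (a 2) = Gate.input (a 3)) ∨ (a 1 = 5 ∧ o (a 0) = a 2) ∨
      a 1 = 6)
    rw [gate_and, gate_or, gate_nor, gate_input]
  · intro x
    set n := x.length with hn
    have hX : ∀ t a, it F e x (t + 1) a ↔ (∀ i, a i < (n + 2) ^ e) ∧
        l.nest x (it F e x t) ((n + 2) ^ E) d 0 a := by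
      intro t a
      rw [← hnest]
      exact Iff.rfl
    have hv := Cp.val_iff (p := p n) (l := l) (x := x) (X := it F e x) (o := o n) hn.symm
      (hM n) (hRM n) (by show 1 ≤ d; omega) (hnM n).le (fun _ h => h) hX
    have hlev : (T n + 1) * (d + 2) ≤ c * T n + c := by
      calc (T n + 1) * (d + 2) ≤ (T n + 1) * c := Nat.mul_le_mul_left _ (by omega)
        _ = c * T n + c := by ring
    have hlo : (p n).lev (o n) < c * T n + c := (Cp.lev_lt (ho n)).trans_le hlev
    show it F e x (T n) (a0 n) ↔ ((p n).circ l (o n)).val x (c * T n + c) (o n)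
    by_cases h1 : 1 ≤ T n ∧ ∀ i, a0 n i < (n + 2) ^ e
    · have ho1 : o n = (p n).cod (T n - 1) d 0 (enc ((n + 2) ^ E) (a0 n)) := if_pos h1
      have e1 : T n - 1 < (p n).T1 := by show T n - 1 < T n + 1; omega
      have e2 : d < (p n).d + 2 := by show d < d + 2; omega
      have e3 : 0 < (p n).M ^ (p n).d := Nat.pow_pos (hM n)
      have q1 : (p n).t (o n) = T n - 1 := by rw [ho1]; exact gt_cd e1
      have q2 : (p n).j (o n) = d := by rw [ho1]; exact gj_cd e1 e2
      have q3 : (p n).s (o n) = 0 := by rw [ho1]; exact gs_cd e1 e2 e3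
      have q4 : (p n).c (o n) = enc ((n + 2) ^ E) (a0 n) := by rw [ho1]; exact gc_cd e1 e2 e3
      rw [hv _ _ (ho n) (fun _ => by
        rw [q3, q2]
        show 0 < ((n + 2) ^ E) ^ (d - d)
        rw [Nat.sub_self, pow_zero]
        exact Nat.one_pos) hlo]
      unfold Cp.sem
      rw [if_neg (by rw [q2]; show d ≠ d + 1; omega), q1, q2, q3, q4]
      show _ ↔ l.nest x (it F e x (T n - 1)) ((n + 2) ^ E) d 0
        (dec ((n + 2) ^ E) m (enc ((n + 2) ^ E) (a0 n)))
      rw [dec_enc _ (fun i => (h1.2 i).trans_le (hRM n))]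
      have h2 : T n = T n - 1 + 1 := by omega
      rw [h2, hX]
      exact ⟨fun h => h.2, fun h => ⟨h1.2, h⟩⟩
    · have ho1 : o n = (p n).cod 0 (d + 1) n 0 := if_neg h1
      have e1 : 0 < (p n).T1 := Nat.succ_pos _
      have e2 : d + 1 < (p n).d + 2 := by show d + 1 < d + 2; omega
      have e3 : n < (p n).M ^ (p n).d := hnM n
      have q2 : (p n).j (o n) = d + 1 := by rw [ho1]; exact gj_cd e1 e2
      have q3 : (p n).s (o n) = n := by rw [ho1]; exact gs_cd e1 e2 e3
      rw [hv _ _ (ho n) (fun h => by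
        rw [q2] at h
        exact absurd h (by show ¬ d + 1 ≤ d; omega)) hlo]
      unfold Cp.sem
      rw [if_pos (by rw [q2]; rfl), q3, List.getElem?_eq_none (by omega)]
      constructor
      · intro h
        exfalso
        rcases Nat.eq_zero_or_pos (T n) with h2 | h2
        · rw [h2] at h
          exact h
        · have h3 : T n = T n - 1 + 1 := by omega
          rw [h3, hX] at h
          exact h1 ⟨h2, h.1⟩
      · intro h
        cases h

end Vale.Agent.P313.AC
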